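import Vale.Agent.P305E.Fuel

/-!
# Computable majorants of subpolynomial overheads
-/

namespace Vale.Agent.P305BX

open Vale.Agent.P305E Finset

/-- `x / log log x`. -/
def sq (x : ℕ) : ℕ := x / Nat.size (Nat.size x)

/-- A monotone bound for `sq`. -/
def hq (b : ℕ) : ℕ := (range (b + 1)).sup sq

@[fun_prop] theorem pure_sq {α : Type} [Rep α] {f : α → ℕ} (h : Pure f) : Pure fun a => sq (f a) := by
  unfold sq
  fun_prop

@[fun_prop] theorem grow_sq {α : Type} [Rep α] {f : α → ℕ} (h : Pure f) : Grow fun a => sq (f a) :=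
  (pure_sq h).grow

theorem sq_le (x : ℕ) : sq x ≤ x := Nat.div_le_self _ _

theorem sq_le_hq (b : ℕ) : sq b ≤ hq b := le_sup (f := sq) (self_mem_range_succ b)

theorem hq_mono : Monotone hq := fun _ _ h => sup_mono (range_mono (Nat.succ_le_succ h))

theorem hq_le (b : ℕ) : hq b ≤ b :=
  Finset.sup_le fun x hx => (sq_le x).trans (Nat.lt_succ_iff.1 (mem_range.1 hx))

/-- Every overhead is bounded by `2 ^ (c * sq x)`. -/
theorem maj {g : ℕ → ℕ} (hs : ∀ a, Sub fun N => g (a * Nat.size N + a)) (hm : Monotone g) :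
    ∃ c, ∀ x, 2 ≤ x → g x ≤ 2 ^ (c * sq x) := by
  obtain ⟨c, hc⟩ := (hs 1).exists_lin
  refine ⟨c, fun x hx => ?_⟩
  obtain ⟨y, rfl⟩ : ∃ y, x = y + 1 := ⟨x - 1, by omega⟩
  have := hc (2 ^ y) (Nat.le_self_pow (by omega) 2)
  rw [sb, Nat.size_pow] at this
  exact (hm (by omega)).trans this

/-- For large `x` the exponent is small. -/
theorem sq_small (c : ℕ) {x : ℕ} (hx : 2 ^ 2 ^ c ≤ x) : c * sq x ≤ x :=
  (Nat.mul_le_mul_right _ (Nat.lt_size.2 (Nat.lt_size.2 hx).le).le).trans (Nat.mul_div_le _ _)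

theorem lin_hq (a : ℕ) : Lin fun N => hq (a * Nat.size N + a) := by
  refine Lin.of_mul_le (2 * a + 2) fun N hN => ?_
  have h1 := two_le_size hN
  obtain ⟨x, hx, e⟩ := exists_mem_eq_sup (range (a * Nat.size N + a + 1)) ⟨0, by simp⟩ sq
  have h3 := mem_range.1 hx
  rw [hq, e, sq]
  generalize Nat.size N = L at *
  have h4 : a ≤ a * L := Nat.le_mul_of_pos_right _ (by omega)
  have h0 := Nat.div_mul_le_self x (Nat.size (Nat.size x))
  have h5 := Nat.div_le_self x (Nat.size (Nat.size x))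
  rcases le_or_gt (Nat.size (Nat.size L)) (Nat.size (Nat.size x)) with hc | hc
  · have := Nat.mul_le_mul_left (x / Nat.size (Nat.size x)) hc
    nlinarith
  have h6 : x < L := lt_of_not_ge fun h => hc.not_ge (Nat.size_le_size (Nat.size_le_size h))
  rcases (Nat.succ_le_of_lt hc).eq_or_lt with hc | hc
  · rw [← hc]
    nlinarith
  have h7 : 2 * Nat.size x ≤ Nat.size L := by
    have := Nat.lt_size.1 hc
    have := Nat.lt_size_self (Nat.size x)
    rw [pow_succ] at *
    omega
  have h8 : Nat.size (Nat.size L) ≤ 2 ^ (Nat.size L / 2) :=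
    (Nat.size_le.2 (show Nat.size L < 2 ^ (Nat.size L / 2 + 1) by
      have := @Nat.lt_two_pow_self (Nat.size L / 2)
      rw [pow_succ]
      omega)).trans Nat.lt_two_pow_self
  have h9 : x ≤ 2 ^ (Nat.size L / 2) :=
    (Nat.lt_size_self x).le.trans (Nat.pow_le_pow_right (by omega) (by omega))
  have k1 := Nat.mul_le_mul (h5.trans h9) h8
  have k2 := two_pow_size_le (show 1 ≤ L by omega)
  rw [← pow_add] at k1
  have k3 := Nat.pow_le_pow_right (show 0 < 2 by omega)
    (show Nat.size L / 2 + Nat.size L / 2 ≤ Nat.size L by omega)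
  nlinarith

/-- `2 ^ (c * hq (p * b + q) + d)` is an admissible overhead. -/
theorem sub_hq (c d p q a : ℕ) : Sub fun N => 2 ^ (c * hq (p * (a * Nat.size N + a) + q) + d) :=
  Sub.two_pow ((((lin_hq (p * a + q)).const_mul c).add (Lin.const d)).mono fun N hN =>
    Nat.add_le_add_right (Nat.mul_le_mul_left _ (hq_mono (by
      have := Nat.le_mul_of_pos_right q (show 0 < Nat.size N by have := two_le_size hN; omega)
      nlinarith [Nat.zero_le q]))) _)

theorem mono_hq (c d p q : ℕ) : Monotone fun b => 2 ^ (c * hq (p * b + q) + d) := fun _ _ h =>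
  Nat.pow_le_pow_right (by omega) (Nat.add_le_add_right (Nat.mul_le_mul_left _
    (hq_mono (Nat.add_le_add_right (Nat.mul_le_mul_left _ h) _))) _)

end Vale.Agent.P305BX
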